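import Mathlib

namespace Vale.Agent.H93

/-- The spin-one matrix `S^x` in the basis of `S^z`-eigenvectors (eigenvalues `1, 0, -1`). -/
noncomputable def spinX : Matrix (Fin 3) (Fin 3) ℂ :=
  ((Real.sqrt 2 : ℝ) : ℂ)⁻¹ • !![0, 1, 0; 1, 0, 1; 0, 1, 0]

/-- The spin-one matrix `S^y` in the basis of `S^z`-eigenvectors (eigenvalues `1, 0, -1`). -/
noncomputable def spinY : Matrix (Fin 3) (Fin 3) ℂ :=
  ((Real.sqrt 2 : ℝ) : ℂ)⁻¹ •
    !![0, -Complex.I, 0; Complex.I, 0, -Complex.I; 0, Complex.I, 0]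

/-- The spin-one matrix `S^z = diag(1, 0, -1)`. -/
def spinZ : Matrix (Fin 3) (Fin 3) ℂ := !![1, 0, 0; 0, 0, 0; 0, 0, -1]

/-- `site j A` is the operator on `(ℂ^3)^{⊗ L}` (matrices indexed by configurations
`Fin L → Fin 3`) acting as `A` on the tensor factor `j` and as the identity on the others. -/
def site {L : ℕ} (j : Fin L) (A : Matrix (Fin 3) (Fin 3) ℂ) :
    Matrix (Fin L → Fin 3) (Fin L → Fin 3) ℂ :=
  fun σ τ => if ∀ i, i ≠ j → σ i = τ i then A (σ j) (τ j) else 0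

/-- The spin-one antiferromagnetic Heisenberg Hamiltonian on a periodic ring of `L` sites:
`H_L = ∑_j ∑_α S^α_j S^α_{j+1}`, indices modulo `L`. -/
noncomputable def heis (L : ℕ) [NeZero L] : Matrix (Fin L → Fin 3) (Fin L → Fin 3) ℂ :=
  ∑ j : Fin L, (site j spinX * site (j + 1) spinX + site j spinY * site (j + 1) spinY
    + site j spinZ * site (j + 1) spinZ)

end Vale.Agent.H93
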