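import Mathlib

open Matrix

namespace Vale.Agent.H93

section Spectral

variable {n : Type*} [Fintype n] [DecidableEq n] {A : Matrix n n ℂ}

/-- Coordinates of `φ` in the eigenbasis of a Hermitian matrix. -/
noncomputable def eigCoord (hA : A.IsHermitian) (φ : n → ℂ) : n → ℂ :=
  star (hA.eigenvectorUnitary : Matrix n n ℂ) *ᵥ φ

lemma eigCoord_apply (hA : A.IsHermitian) (φ : n → ℂ) (i : n) :
    eigCoord hA φ i = star (⇑(hA.eigenvectorBasis i) : n → ℂ) ⬝ᵥ φ := by
  unfold eigCoord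
  simp only [Matrix.mulVec, dotProduct, Matrix.star_apply, IsHermitian.eigenvectorUnitary_apply,
    Pi.star_apply]

lemma quad_expansion (hA : A.IsHermitian) (φ : n → ℂ) :
    star φ ⬝ᵥ (A *ᵥ φ) =
      ∑ i, (hA.eigenvalues i : ℂ) * (star (eigCoord hA φ i) * eigCoord hA φ i) := by
  have hspec : A = (hA.eigenvectorUnitary : Matrix n n ℂ) *
      diagonal (RCLike.ofReal ∘ hA.eigenvalues) * star (hA.eigenvectorUnitary : Matrix n n ℂ) := by
    have h := hA.spectral_theorem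
    rw [Unitary.conjStarAlgAut_apply] at h
    exact h
  have h1 : star φ ᵥ* (hA.eigenvectorUnitary : Matrix n n ℂ) = star (eigCoord hA φ) := by
    unfold eigCoord
    rw [Matrix.star_mulVec]
    simp [Matrix.star_eq_conjTranspose]
  conv_lhs => rw [hspec]
  rw [← Matrix.mulVec_mulVec, ← Matrix.mulVec_mulVec, Matrix.dotProduct_mulVec, h1]
  show star (eigCoord hA φ) ⬝ᵥ (diagonal (RCLike.ofReal ∘ hA.eigenvalues) *ᵥ eigCoord hA φ) = _
  simp only [dotProduct, Matrix.mulVec_diagonal, Pi.star_apply, Function.comp_apply]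
  refine Finset.sum_congr rfl fun i _ => ?_
  simp only [Complex.coe_algebraMap]
  ring

lemma norm_expansion (hA : A.IsHermitian) (φ : n → ℂ) :
    star φ ⬝ᵥ φ = ∑ i, star (eigCoord hA φ i) * eigCoord hA φ i := by
  have h1 : star φ ᵥ* (hA.eigenvectorUnitary : Matrix n n ℂ) = star (eigCoord hA φ) := by
    unfold eigCoord
    rw [Matrix.star_mulVec]
    simp [Matrix.star_eq_conjTranspose]
  have h2 : φ = (hA.eigenvectorUnitary : Matrix n n ℂ) *ᵥ eigCoord hA φ := by
    unfold eigCoord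
    rw [Matrix.mulVec_mulVec, Unitary.mul_star_self_of_mem hA.eigenvectorUnitary.2, Matrix.one_mulVec]
  conv_lhs => rw [h2]
  rw [Matrix.dotProduct_mulVec]
  conv_lhs => rw [← h2, h1]
  rfl

lemma star_mul_self_re_nonneg (z : ℂ) : 0 ≤ (star z * z).re := by
  have : star z * z = (Complex.normSq z : ℂ) := by
    rw [Complex.star_def, mul_comm, Complex.mul_conj]
  rw [this, Complex.ofReal_re]
  exact Complex.normSq_nonneg z

lemma star_mul_self_eq (z : ℂ) : star z * z = ((star z * z).re : ℂ) := by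
  have : star z * z = (Complex.normSq z : ℂ) := by
    rw [Complex.star_def, mul_comm, Complex.mul_conj]
  rw [this, Complex.ofReal_re]

/-- Rayleigh lower bound: the quadratic form is at least the least eigenvalue. -/
lemma rayleigh_lower (hA : A.IsHermitian) {E₀ : ℝ} (h0 : ∀ E ∈ spectrum ℝ A, E₀ ≤ E)
    (φ : n → ℂ) : E₀ * (star φ ⬝ᵥ φ).re ≤ (star φ ⬝ᵥ (A *ᵥ φ)).re := by
  rw [quad_expansion hA, norm_expansion hA, Complex.re_sum, Complex.re_sum, Finset.mul_sum]
  refine Finset.sum_le_sum fun i _ => ?_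
  rw [star_mul_self_eq (eigCoord hA φ i), ← Complex.ofReal_mul, Complex.ofReal_re,
    Complex.ofReal_re]
  have hi : E₀ ≤ hA.eigenvalues i := h0 _ (hA.eigenvalues_mem_spectrum_real i)
  exact mul_le_mul_of_nonneg_right hi (star_mul_self_re_nonneg _)

/-- Gap lower bound: on vectors orthogonal to the ground space, the quadratic form is at
least the next eigenvalue. -/
lemma gap_lower (hA : A.IsHermitian) {E₀ E₁ : ℝ} (h0 : ∀ E ∈ spectrum ℝ A, E₀ ≤ E)
    (h1 : ∀ E ∈ spectrum ℝ A, E₀ < E → E₁ ≤ E) (φ : n → ℂ)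
    (horth : ∀ g : n → ℂ, A *ᵥ g = (E₀ : ℂ) • g → star g ⬝ᵥ φ = 0) :
    E₁ * (star φ ⬝ᵥ φ).re ≤ (star φ ⬝ᵥ (A *ᵥ φ)).re := by
  rw [quad_expansion hA, norm_expansion hA, Complex.re_sum, Complex.re_sum, Finset.mul_sum]
  refine Finset.sum_le_sum fun i _ => ?_
  rw [star_mul_self_eq (eigCoord hA φ i), ← Complex.ofReal_mul, Complex.ofReal_re,
    Complex.ofReal_re]
  have hi : E₀ ≤ hA.eigenvalues i := h0 _ (hA.eigenvalues_mem_spectrum_real i)
  rcases eq_or_lt_of_le hi with heq | hlt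
  · -- the coordinate vanishes
    have hg : A *ᵥ (⇑(hA.eigenvectorBasis i) : n → ℂ) =
        (E₀ : ℂ) • (⇑(hA.eigenvectorBasis i) : n → ℂ) := by
      rw [hA.mulVec_eigenvectorBasis i, heq]
      funext x
      simp
    have hz : eigCoord hA φ i = 0 := by
      rw [eigCoord_apply]; exact horth _ hg
    rw [hz]
    simp
  · exact mul_le_mul_of_nonneg_right (h1 _ (hA.eigenvalues_mem_spectrum_real i) hlt)
      (star_mul_self_re_nonneg _)

/-- If all eigenvalues coincide with `E₀`, every diagonal entry equals `E₀`. -/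
lemma diag_eq_of_spectrum_eq (hA : A.IsHermitian) {E₀ : ℝ}
    (h : ∀ E ∈ spectrum ℝ A, E = E₀) (σ : n) : A σ σ = (E₀ : ℂ) := by
  have hq := quad_expansion hA (Pi.single σ (1 : ℂ))
  have hn := norm_expansion hA (Pi.single σ (1 : ℂ))
  have h1 : star (Pi.single σ (1 : ℂ)) ⬝ᵥ (A *ᵥ Pi.single σ (1 : ℂ)) = A σ σ := by
    simp [dotProduct, Pi.single_apply]
  have h2 : star (Pi.single σ (1 : ℂ)) ⬝ᵥ Pi.single σ (1 : ℂ) = 1 := by
    simp [dotProduct, Pi.single_apply]
  rw [h1] at hq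
  rw [h2] at hn
  rw [hq]
  have : ∀ i, (hA.eigenvalues i : ℂ) = (E₀ : ℂ) := fun i => by
    rw [h _ (hA.eigenvalues_mem_spectrum_real i)]
  simp_rw [this]
  rw [← Finset.mul_sum, ← hn, mul_one]

/-- An eigenvector for every point of the real spectrum. -/
lemma exists_eigenvector_of_mem_spectrum (hA : A.IsHermitian) {E : ℝ}
    (hE : E ∈ spectrum ℝ A) : ∃ v : n → ℂ, v ≠ 0 ∧ A *ᵥ v = (E : ℂ) • v := by
  rw [hA.spectrum_real_eq_range_eigenvalues] at hE
  obtain ⟨i, rfl⟩ := hE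
  refine ⟨⇑(hA.eigenvectorBasis i), ?_, ?_⟩
  · exact (WithLp.ofLp_eq_zero 2).ne.2 <| hA.eigenvectorBasis.orthonormal.ne_zero i
  · rw [hA.mulVec_eigenvectorBasis i]
    funext x
    simp

lemma exists_isLeast_spectrum [Nonempty n] (hA : A.IsHermitian) :
    ∃ E₀ : ℝ, IsLeast (spectrum ℝ A) E₀ := by
  have hfin : (spectrum ℝ A).Finite := Matrix.finite_real_spectrum
  have hne : (spectrum ℝ A).Nonempty := by
    rw [hA.spectrum_real_eq_range_eigenvalues]
    exact Set.range_nonempty _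
  obtain ⟨E₀, hE₀, hmin⟩ := Set.exists_min_image (spectrum ℝ A) id hfin hne
  exact ⟨E₀, hE₀, fun E hE => hmin E hE⟩

end Spectral

end Vale.Agent.H93
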