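import Mathlib
import Vale.Agent.H93.HeisDefs

open Matrix
open scoped Kronecker ComplexOrder

namespace Vale.Agent.H93

variable {L : ℕ}

/-- Two-site embedding: `emb2 j k M` acts as the `9 × 9` matrix `M` on the tensor factors
`j` and `k` and as the identity on the others. -/
def emb2 (j k : Fin L) (M : Matrix (Fin 3 × Fin 3) (Fin 3 × Fin 3) ℂ) :
    Matrix (Fin L → Fin 3) (Fin L → Fin 3) ℂ :=
  fun σ τ => if ∀ i, i ≠ j → i ≠ k → σ i = τ i then M (σ j, σ k) (τ j, τ k) else 0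

lemma upd2_j {j k : Fin L} (hjk : j ≠ k) (σ : Fin L → Fin 3) (a b : Fin 3) :
    Function.update (Function.update σ j a) k b j = a := by
  rw [Function.update_of_ne hjk, Function.update_self]

lemma upd2_k (j k : Fin L) (σ : Fin L → Fin 3) (a b : Fin 3) :
    Function.update (Function.update σ j a) k b k = b := by
  rw [Function.update_self]

lemma upd2_ne {j k i : Fin L} (hij : i ≠ j) (hik : i ≠ k) (σ : Fin L → Fin 3) (a b : Fin 3) :
    Function.update (Function.update σ j a) k b i = σ i := by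
  rw [Function.update_of_ne hik, Function.update_of_ne hij]

lemma sum_agree2 {j k : Fin L} (hjk : j ≠ k) (σ : Fin L → Fin 3)
    (F : (Fin L → Fin 3) → ℂ) :
    ∑ τ, (if ∀ i, i ≠ j → i ≠ k → σ i = τ i then F τ else 0)
      = ∑ a, ∑ b, F (Function.update (Function.update σ j a) k b) := by
  classical
  rw [← Finset.sum_filter, ← Finset.sum_product']
  symm
  refine Finset.sum_bij (fun p _ => Function.update (Function.update σ j p.1) k p.2) ?_ ?_ ?_ ?_
  · intro p _
    simp only [Finset.mem_filter, Finset.mem_univ, true_and]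
    intro i hij hik
    rw [upd2_ne hij hik]
  · intro p _ p' _ h
    have h1 := congrFun h j
    have h2 := congrFun h k
    rw [upd2_j hjk, upd2_j hjk] at h1
    rw [upd2_k, upd2_k] at h2
    exact Prod.ext h1 h2
  · intro τ hτ
    simp only [Finset.mem_filter, Finset.mem_univ, true_and] at hτ
    refine ⟨(τ j, τ k), Finset.mem_univ _, ?_⟩
    funext i
    by_cases hik : i = k
    · subst hik; rw [upd2_k]
    · by_cases hij : i = j
      · subst hij; rw [upd2_j hjk]
      · rw [upd2_ne hij hik, hτ i hij hik]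
  · intro p _; rfl

lemma emb2_mul {j k : Fin L} (hjk : j ≠ k) (M N : Matrix (Fin 3 × Fin 3) (Fin 3 × Fin 3) ℂ) :
    emb2 j k M * emb2 j k N = emb2 j k (M * N) := by
  classical
  ext σ ρ
  rw [Matrix.mul_apply]
  have h1 : ∀ τ, emb2 j k M σ τ * emb2 j k N τ ρ =
      if ∀ i, i ≠ j → i ≠ k → σ i = τ i then M (σ j, σ k) (τ j, τ k) * emb2 j k N τ ρ
      else 0 := by
    intro τ
    unfold emb2
    by_cases h : ∀ i, i ≠ j → i ≠ k → σ i = τ i
    · rw [if_pos h, if_pos h]
    · rw [if_neg h, if_neg h, zero_mul]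
  simp_rw [h1]
  rw [sum_agree2 hjk]
  have h2 : ∀ a b, emb2 j k N (Function.update (Function.update σ j a) k b) ρ =
      if ∀ i, i ≠ j → i ≠ k → σ i = ρ i then N (a, b) (ρ j, ρ k) else 0 := by
    intro a b
    unfold emb2
    rw [upd2_j hjk, upd2_k]
    have : (∀ i, i ≠ j → i ≠ k → Function.update (Function.update σ j a) k b i = ρ i) ↔
        (∀ i, i ≠ j → i ≠ k → σ i = ρ i) := by
      constructor
      · intro h i hij hik; rw [← h i hij hik, upd2_ne hij hik]
      · intro h i hij hik; rw [upd2_ne hij hik, h i hij hik]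
    simp only [this]
  simp_rw [h2, upd2_j hjk, upd2_k]
  unfold emb2
  by_cases h : ∀ i, i ≠ j → i ≠ k → σ i = ρ i
  · simp only [if_pos h]
    rw [Matrix.mul_apply, Fintype.sum_prod_type]
  · simp only [if_neg h, mul_zero, Finset.sum_const_zero]

lemma emb2_apply (j k : Fin L) (M : Matrix (Fin 3 × Fin 3) (Fin 3 × Fin 3) ℂ)
    (σ τ : Fin L → Fin 3) :
    emb2 j k M σ τ = if ∀ i, i ≠ j → i ≠ k → σ i = τ i then M (σ j, σ k) (τ j, τ k) else 0 :=
  rfl

lemma site_apply (j : Fin L) (A : Matrix (Fin 3) (Fin 3) ℂ) (σ τ : Fin L → Fin 3) :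
    site j A σ τ = if ∀ i, i ≠ j → σ i = τ i then A (σ j) (τ j) else 0 :=
  rfl

lemma emb2_add (j k : Fin L) (M N : Matrix (Fin 3 × Fin 3) (Fin 3 × Fin 3) ℂ) :
    emb2 j k (M + N) = emb2 j k M + emb2 j k N := by
  ext σ ρ
  rw [Matrix.add_apply, emb2_apply, emb2_apply, emb2_apply]
  by_cases h : ∀ i, i ≠ j → i ≠ k → σ i = ρ i
  · rw [if_pos h, if_pos h, if_pos h, Matrix.add_apply]
  · rw [if_neg h, if_neg h, if_neg h, add_zero]

lemma emb2_sub (j k : Fin L) (M N : Matrix (Fin 3 × Fin 3) (Fin 3 × Fin 3) ℂ) :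
    emb2 j k (M - N) = emb2 j k M - emb2 j k N := by
  ext σ ρ
  rw [Matrix.sub_apply, emb2_apply, emb2_apply, emb2_apply]
  by_cases h : ∀ i, i ≠ j → i ≠ k → σ i = ρ i
  · rw [if_pos h, if_pos h, if_pos h, Matrix.sub_apply]
  · rw [if_neg h, if_neg h, if_neg h, sub_zero]

lemma emb2_smul (j k : Fin L) (c : ℂ) (M : Matrix (Fin 3 × Fin 3) (Fin 3 × Fin 3) ℂ) :
    emb2 j k (c • M) = c • emb2 j k M := by
  ext σ ρ
  rw [Matrix.smul_apply, emb2_apply, emb2_apply]
  by_cases h : ∀ i, i ≠ j → i ≠ k → σ i = ρ i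
  · rw [if_pos h, if_pos h, Matrix.smul_apply]
  · rw [if_neg h, if_neg h, smul_zero]

lemma emb2_conjTranspose (j k : Fin L) (M : Matrix (Fin 3 × Fin 3) (Fin 3 × Fin 3) ℂ) :
    (emb2 j k M)ᴴ = emb2 j k Mᴴ := by
  ext σ ρ
  rw [Matrix.conjTranspose_apply]
  unfold emb2
  by_cases h : ∀ i, i ≠ j → i ≠ k → σ i = ρ i
  · have h' : ∀ i, i ≠ j → i ≠ k → ρ i = σ i := fun i hij hik => (h i hij hik).symm
    rw [if_pos h, if_pos h', Matrix.conjTranspose_apply]
  · have h' : ¬ ∀ i, i ≠ j → i ≠ k → ρ i = σ i := fun h' => h fun i hij hik => (h' i hij hik).symm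
    rw [if_neg h, if_neg h', star_zero]

lemma emb2_diagonal {j k : Fin L} (d : Fin 3 × Fin 3 → ℂ) :
    emb2 j k (Matrix.diagonal d) = Matrix.diagonal (fun σ : Fin L → Fin 3 => d (σ j, σ k)) := by
  classical
  ext σ ρ
  unfold emb2
  by_cases hσρ : σ = ρ
  · subst hσρ
    simp
  · rw [Matrix.diagonal_apply_ne _ hσρ]
    by_cases h : ∀ i, i ≠ j → i ≠ k → σ i = ρ i
    · rw [if_pos h]
      apply Matrix.diagonal_apply_ne
      intro hp
      apply hσρ
      funext i
      by_cases hij : i = j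
      · subst hij; exact (Prod.ext_iff.mp hp).1
      · by_cases hik : i = k
        · subst hik; exact (Prod.ext_iff.mp hp).2
        · exact h i hij hik
    · rw [if_neg h]

lemma site_eq_emb2_left {j k : Fin L} (hjk : j ≠ k) (A : Matrix (Fin 3) (Fin 3) ℂ) :
    site j A = emb2 j k (A ⊗ₖ 1) := by
  classical
  ext σ ρ
  unfold site emb2
  rw [Matrix.kroneckerMap_apply, Matrix.one_apply]
  by_cases h : ∀ i, i ≠ j → σ i = ρ i
  · have h' : ∀ i, i ≠ j → i ≠ k → σ i = ρ i := fun i hij _ => h i hij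
    rw [if_pos h, if_pos h', if_pos (h k (Ne.symm hjk)), mul_one]
  · rw [if_neg h]
    by_cases h' : ∀ i, i ≠ j → i ≠ k → σ i = ρ i
    · rw [if_pos h']
      have hk : σ k ≠ ρ k := by
        intro hk
        apply h
        intro i hij
        by_cases hik : i = k
        · subst hik; exact hk
        · exact h' i hij hik
      rw [if_neg hk, mul_zero]
    · rw [if_neg h']

lemma site_eq_emb2_right {j k : Fin L} (hjk : j ≠ k) (A : Matrix (Fin 3) (Fin 3) ℂ) :
    site k A = emb2 j k (1 ⊗ₖ A) := by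
  classical
  ext σ ρ
  unfold site emb2
  rw [Matrix.kroneckerMap_apply, Matrix.one_apply]
  by_cases h : ∀ i, i ≠ k → σ i = ρ i
  · have h' : ∀ i, i ≠ j → i ≠ k → σ i = ρ i := fun i _ hik => h i hik
    rw [if_pos h, if_pos h', if_pos (h j hjk), one_mul]
  · rw [if_neg h]
    by_cases h' : ∀ i, i ≠ j → i ≠ k → σ i = ρ i
    · rw [if_pos h']
      have hj : σ j ≠ ρ j := by
        intro hj
        apply h
        intro i hik
        by_cases hij : i = j
        · subst hij; exact hj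
        · exact h' i hij hik
      rw [if_neg hj, zero_mul]
    · rw [if_neg h']

lemma emb2_one {j k : Fin L} : emb2 j k (1 : Matrix (Fin 3 × Fin 3) (Fin 3 × Fin 3) ℂ) = 1 := by
  classical
  rw [← Matrix.diagonal_one, emb2_diagonal, ← Matrix.diagonal_one]

lemma site_smul (j : Fin L) (c : ℂ) (A : Matrix (Fin 3) (Fin 3) ℂ) :
    site j (c • A) = c • site j A := by
  ext σ ρ
  rw [Matrix.smul_apply, site_apply, site_apply]
  by_cases h : ∀ i, i ≠ j → σ i = ρ i
  · rw [if_pos h, if_pos h, Matrix.smul_apply]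
  · rw [if_neg h, if_neg h, smul_zero]

lemma site_conjTranspose (j : Fin L) (A : Matrix (Fin 3) (Fin 3) ℂ) :
    (site j A)ᴴ = site j Aᴴ := by
  ext σ ρ
  rw [Matrix.conjTranspose_apply, site_apply, site_apply]
  by_cases h : ∀ i, i ≠ j → σ i = ρ i
  · have h' : ∀ i, i ≠ j → ρ i = σ i := fun i hij => (h i hij).symm
    rw [if_pos h, if_pos h', Matrix.conjTranspose_apply]
  · have h' : ¬ ∀ i, i ≠ j → ρ i = σ i := fun h' => h fun i hij => (h' i hij).symm
    rw [if_neg h, if_neg h', star_zero]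

/-- product of operators on two distinct sites -/
lemma site_mul_site {j k : Fin L} (hjk : j ≠ k) (A B : Matrix (Fin 3) (Fin 3) ℂ) :
    site j A * site k B = emb2 j k (A ⊗ₖ B) := by
  rw [site_eq_emb2_left hjk A, site_eq_emb2_right hjk B, emb2_mul hjk,
    ← Matrix.mul_kronecker_mul, Matrix.mul_one, Matrix.one_mul]

lemma site_mul_site' {j k : Fin L} (hjk : j ≠ k) (A B : Matrix (Fin 3) (Fin 3) ℂ) :
    site k B * site j A = emb2 j k (A ⊗ₖ B) := by
  rw [site_eq_emb2_left hjk A, site_eq_emb2_right hjk B, emb2_mul hjk,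
    ← Matrix.mul_kronecker_mul, Matrix.mul_one, Matrix.one_mul]

lemma site_comm {j k : Fin L} (hjk : j ≠ k) (A B : Matrix (Fin 3) (Fin 3) ℂ) :
    Commute (site j A) (site k B) := by
  unfold Commute SemiconjBy
  rw [site_mul_site hjk, site_mul_site' hjk]

/-- product of operators on the same site -/
lemma site_mul {j k : Fin L} (hjk : j ≠ k) (A B : Matrix (Fin 3) (Fin 3) ℂ) :
    site j A * site j B = site j (A * B) := by
  rw [site_eq_emb2_left hjk A, site_eq_emb2_left hjk B, site_eq_emb2_left hjk (A * B),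
    emb2_mul hjk, ← Matrix.mul_kronecker_mul, Matrix.mul_one]

/-! ### Integer matrices and the bond operator -/

/-- entrywise cast of integer matrices to complex matrices, as a ring homomorphism -/
noncomputable def castC {n : Type*} [Fintype n] [DecidableEq n] :
    Matrix n n ℤ →+* Matrix n n ℂ := (Int.castRingHom ℂ).mapMatrix

lemma castC_apply {n : Type*} [Fintype n] [DecidableEq n] (M : Matrix n n ℤ) (a b : n) :
    castC M a b = (M a b : ℂ) := rfl

lemma castC_kron (A B : Matrix (Fin 3) (Fin 3) ℤ) :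
    castC (A ⊗ₖ B) = castC A ⊗ₖ castC B := by
  ext ⟨a, b⟩ ⟨c, d⟩
  simp [castC_apply, Matrix.kroneckerMap_apply]

lemma castC_transpose {n : Type*} [Fintype n] [DecidableEq n] (M : Matrix n n ℤ) :
    (castC M)ᴴ = castC Mᵀ := by
  ext a b
  simp [castC_apply, Matrix.conjTranspose_apply]

/-- `S^z` as an integer matrix -/
def Zm : Matrix (Fin 3) (Fin 3) ℤ := !![1, 0, 0; 0, 0, 0; 0, 0, -1]

/-- the raising matrix `S^+ / √2` as an integer matrix -/
def Rm : Matrix (Fin 3) (Fin 3) ℤ := !![0, 1, 0; 0, 0, 1; 0, 0, 0]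

/-- the bond operator `S ⬝ S` on two spin-one sites, as an integer `9 × 9` matrix -/
def qm : Matrix (Fin 3 × Fin 3) (Fin 3 × Fin 3) ℤ := Zm ⊗ₖ Zm + Rm ⊗ₖ Rmᵀ + Rmᵀ ⊗ₖ Rm

lemma sqrt_two_inv_sq : (((Real.sqrt 2 : ℝ) : ℂ))⁻¹ * (((Real.sqrt 2 : ℝ) : ℂ))⁻¹ = (2 : ℂ)⁻¹ := by
  rw [← mul_inv, ← Complex.ofReal_mul, Real.mul_self_sqrt (by norm_num)]
  norm_num

lemma spinX_eq : spinX = (((Real.sqrt 2 : ℝ) : ℂ))⁻¹ • castC (Rm + Rmᵀ) := by
  unfold spinX
  congr 1
  ext a b
  fin_cases a <;> fin_cases b <;> simp [castC_apply, Rm]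

lemma spinY_eq : spinY = ((((Real.sqrt 2 : ℝ) : ℂ))⁻¹ * Complex.I) • castC (Rmᵀ - Rm) := by
  unfold spinY
  rw [mul_smul]
  congr 1
  ext a b
  fin_cases a <;> fin_cases b <;> simp [castC_apply, Rm]

lemma spinZ_eq : spinZ = castC Zm := by
  unfold spinZ
  ext a b
  fin_cases a <;> fin_cases b <;> simp [castC_apply, Zm]

lemma qm_aux : (Rm + Rmᵀ) ⊗ₖ (Rm + Rmᵀ) - (Rmᵀ - Rm) ⊗ₖ (Rmᵀ - Rm)
    = 2 • (Rm ⊗ₖ Rmᵀ + Rmᵀ ⊗ₖ Rm) := by
  decide

lemma castC_two_nsmul {n : Type*} [Fintype n] [DecidableEq n] (M : Matrix n n ℤ) :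
    castC (2 • M) = (2 : ℂ) • castC M := by
  rw [map_nsmul, two_nsmul, two_smul]

lemma bond_alg_aux {M : Type*} [AddCommGroup M] [Module ℂ M] (XX WW ZZ RR Q : M)
    (h2 : XX - WW = (2 : ℂ) • RR) (h3 : Q = ZZ + RR) :
    (2 : ℂ)⁻¹ • XX + (-(2 : ℂ)⁻¹) • WW + ZZ = Q := by
  have h : XX = WW + (2 : ℂ) • RR := by rw [← h2]; abel
  rw [h, h3, smul_add, smul_smul, neg_smul]
  have h2' : (2 : ℂ)⁻¹ * 2 = 1 := by norm_num
  rw [h2', one_smul]
  abel

/-- The bond operator of the Hamiltonian is the two-site embedding of `qm`. -/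
lemma bond_eq {j k : Fin L} (hjk : j ≠ k) :
    site j spinX * site k spinX + site j spinY * site k spinY + site j spinZ * site k spinZ
      = emb2 j k (castC qm) := by
  have hI : ((Real.sqrt 2 : ℝ) : ℂ)⁻¹ * Complex.I * (((Real.sqrt 2 : ℝ) : ℂ)⁻¹ * Complex.I)
      = -(2 : ℂ)⁻¹ := by
    have : ((Real.sqrt 2 : ℝ) : ℂ)⁻¹ * Complex.I * (((Real.sqrt 2 : ℝ) : ℂ)⁻¹ * Complex.I)
        = (((Real.sqrt 2 : ℝ) : ℂ)⁻¹ * ((Real.sqrt 2 : ℝ) : ℂ)⁻¹) * (Complex.I * Complex.I) := by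
      ring
    rw [this, sqrt_two_inv_sq, Complex.I_mul_I]
    ring
  have hX : site j spinX * site k spinX
      = (2 : ℂ)⁻¹ • emb2 j k (castC ((Rm + Rmᵀ) ⊗ₖ (Rm + Rmᵀ))) := by
    rw [spinX_eq, site_smul, site_smul, Matrix.smul_mul, Matrix.mul_smul, smul_smul,
      sqrt_two_inv_sq, site_mul_site hjk, castC_kron]
  have hY : site j spinY * site k spinY
      = (-(2 : ℂ)⁻¹) • emb2 j k (castC ((Rmᵀ - Rm) ⊗ₖ (Rmᵀ - Rm))) := by
    rw [spinY_eq, site_smul, site_smul, Matrix.smul_mul, Matrix.mul_smul, smul_smul,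
      hI, site_mul_site hjk, castC_kron]
  have hZ : site j spinZ * site k spinZ = emb2 j k (castC (Zm ⊗ₖ Zm)) := by
    rw [spinZ_eq, site_mul_site hjk, castC_kron]
  rw [hX, hY, hZ, ← emb2_smul, ← emb2_smul, ← emb2_add, ← emb2_add]
  congr 1
  apply bond_alg_aux _ _ _ (castC (Rm ⊗ₖ Rmᵀ + Rmᵀ ⊗ₖ Rm))
  · rw [← map_sub, qm_aux, castC_two_nsmul]
  · unfold qm
    rw [add_assoc, map_add]

/-! ### The Hamiltonian as a sum of two-site embeddings -/

section Chain

variable [NeZero L]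

lemma succ_ne_self (hL : 2 ≤ L) (i : Fin L) : i ≠ i + 1 := by
  intro h
  have h1 : (1 : Fin L) = 0 := by
    have h2 : i + 1 = i + 0 := by rw [add_zero]; exact h.symm
    exact add_left_cancel h2
  have h3 := congrArg Fin.val h1
  rw [Fin.val_one', Fin.val_zero, Nat.mod_eq_of_lt (by omega)] at h3
  exact absurd h3 (by norm_num)

lemma heis_eq (hL : 2 ≤ L) : heis L = ∑ i, emb2 i (i + 1) (castC qm) := by
  unfold heis
  exact Finset.sum_congr rfl fun i _ => bond_eq (succ_ne_self hL i)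

lemma qm_transpose : qmᵀ = qm := by decide

lemma heis_isHermitian (hL : 2 ≤ L) : (heis L).IsHermitian := by
  unfold Matrix.IsHermitian
  rw [heis_eq hL, Matrix.conjTranspose_sum]
  refine Finset.sum_congr rfl fun i _ => ?_
  rw [emb2_conjTranspose, castC_transpose, qm_transpose]

/-- two-site operator collecting the commutator terms of a single-site excitation -/
def c2 (Q : Matrix (Fin 3 × Fin 3) (Fin 3 × Fin 3) ℂ) (B A : Matrix (Fin 3) (Fin 3) ℂ) :
    Matrix (Fin 3 × Fin 3) (Fin 3 × Fin 3) ℂ :=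
  (B ⊗ₖ 1) * (Q * (A ⊗ₖ 1) - (A ⊗ₖ 1) * Q) + (1 ⊗ₖ B) * (Q * (1 ⊗ₖ A) - (1 ⊗ₖ A) * Q)

lemma comm_sum (hL : 2 ≤ L) (A B : Matrix (Fin 3) (Fin 3) ℂ) :
    ∑ l, site l B * (heis L * site l A - site l A * heis L)
      = ∑ i, emb2 i (i + 1) (c2 (castC qm) B A) := by
  classical
  have h1 : ∀ l : Fin L, heis L * site l A - site l A * heis L
      = ∑ i : Fin L, ((site i spinX * site (i + 1) spinX + site i spinY * site (i + 1) spinY
          + site i spinZ * site (i + 1) spinZ) * site l A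
        - site l A * (site i spinX * site (i + 1) spinX + site i spinY * site (i + 1) spinY
          + site i spinZ * site (i + 1) spinZ)) := by
    intro l
    unfold heis
    rw [Finset.sum_mul, Finset.mul_sum, Finset.sum_sub_distrib]
  simp_rw [h1, Finset.mul_sum]
  rw [Finset.sum_comm]
  refine Finset.sum_congr rfl fun i _ => ?_
  have hne := succ_ne_self hL i
  rw [Fintype.sum_eq_add i (i + 1) hne]
  · rw [bond_eq hne]
    have e1 : site i B * (emb2 i (i + 1) (castC qm) * site i A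
        - site i A * emb2 i (i + 1) (castC qm))
        = emb2 i (i + 1) ((B ⊗ₖ 1) * (castC qm * (A ⊗ₖ 1) - (A ⊗ₖ 1) * castC qm)) := by
      rw [site_eq_emb2_left hne B, site_eq_emb2_left hne A, emb2_mul hne, emb2_mul hne,
        ← emb2_sub, emb2_mul hne]
    have e2 : site (i + 1) B * (emb2 i (i + 1) (castC qm) * site (i + 1) A
        - site (i + 1) A * emb2 i (i + 1) (castC qm))
        = emb2 i (i + 1) ((1 ⊗ₖ B) * (castC qm * (1 ⊗ₖ A) - (1 ⊗ₖ A) * castC qm)) := by
      rw [site_eq_emb2_right hne B, site_eq_emb2_right hne A, emb2_mul hne, emb2_mul hne,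
        ← emb2_sub, emb2_mul hne]
    rw [e1, e2, ← emb2_add]
    rfl
  · intro l hl
    have hc : Commute (site i spinX * site (i + 1) spinX + site i spinY * site (i + 1) spinY
          + site i spinZ * site (i + 1) spinZ) (site l A) := by
      have c1 : ∀ S, Commute (site i S) (site l A) := fun S => site_comm (Ne.symm hl.1) S A
      have c2 : ∀ S, Commute (site (i + 1) S) (site l A) := fun S => site_comm (Ne.symm hl.2) S A
      exact (((c1 _).mul_left (c2 _)).add_left ((c1 _).mul_left (c2 _))).add_left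
        ((c1 _).mul_left (c2 _))
    rw [hc.eq, sub_self, mul_zero]

lemma sq_sum (hL : 2 ≤ L) (X : Matrix (Fin 3) (Fin 3) ℂ) :
    ∑ i : Fin L, emb2 i (i + 1) (X ⊗ₖ 1 + 1 ⊗ₖ X) = ∑ l : Fin L, site l X + ∑ l : Fin L, site l X := by
  have h : ∀ i : Fin L, emb2 i (i + 1) (X ⊗ₖ 1 + 1 ⊗ₖ X) = site i X + site (i + 1) X := by
    intro i
    rw [emb2_add, ← site_eq_emb2_left (succ_ne_self hL i), ← site_eq_emb2_right (succ_ne_self hL i)]
  simp_rw [h]
  rw [Finset.sum_add_distrib]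
  congr 1
  exact Equiv.sum_comp (Equiv.addRight (1 : Fin L)) (fun l => site l X)

end Chain

end Vale.Agent.H93
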