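import Mathlib
import Vale.Agent.H93.HeisDefs
import Vale.Agent.H93.SpinChain
import Vale.Agent.H93.SpecLemmas

open Matrix
open scoped Kronecker ComplexOrder

namespace Vale.Agent.H93

/-! ### Quadratic forms -/

section Quad

variable {n : Type*} [Fintype n]

/-- real part of the quadratic form of a matrix in the vector `ψ`, as an additive map -/
noncomputable def evR (ψ : n → ℂ) : Matrix n n ℂ →+ ℝ :=
  AddMonoidHom.mk' (fun X => (star ψ ⬝ᵥ (X *ᵥ ψ)).re) (by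
    intro X Y
    simp only [Matrix.add_mulVec, dotProduct_add, Complex.add_re])

lemma evR_apply (ψ : n → ℂ) (X : Matrix n n ℂ) : evR ψ X = (star ψ ⬝ᵥ (X *ᵥ ψ)).re := rfl

lemma evR_conjTranspose (ψ : n → ℂ) (X : Matrix n n ℂ) : evR ψ Xᴴ = evR ψ X := by
  rw [evR_apply, evR_apply, Matrix.dotProduct_mulVec, ← Matrix.star_mulVec,
    Matrix.star_dotProduct, Complex.star_def, Complex.conj_re]

lemma evR_one [DecidableEq n] (ψ : n → ℂ) : evR ψ 1 = (star ψ ⬝ᵥ ψ).re := by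
  rw [evR_apply, Matrix.one_mulVec]

/-- energy of the excitation `X ψ` above an eigenvalue `E` of `H` with eigenvector `ψ` -/
lemma evR_exc (H X : Matrix n n ℂ) (ψ : n → ℂ) (E : ℝ) (hψ : H *ᵥ ψ = (E : ℂ) • ψ) :
    evR ψ (Xᴴ * (H * X - X * H))
      = (star (X *ᵥ ψ) ⬝ᵥ (H *ᵥ (X *ᵥ ψ))).re - E * (star (X *ᵥ ψ) ⬝ᵥ (X *ᵥ ψ)).re := by
  rw [evR_apply, ← Matrix.mulVec_mulVec, Matrix.sub_mulVec, ← Matrix.mulVec_mulVec,
    ← Matrix.mulVec_mulVec, hψ, Matrix.mulVec_smul, Matrix.dotProduct_mulVec,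
    ← Matrix.star_mulVec, dotProduct_sub, dotProduct_smul, smul_eq_mul, Complex.sub_re,
    Complex.re_ofReal_mul]

lemma evR_sq (X : Matrix n n ℂ) (ψ : n → ℂ) :
    evR ψ (Xᴴ * X) = (star (X *ᵥ ψ) ⬝ᵥ (X *ᵥ ψ)).re := by
  rw [evR_apply, ← Matrix.mulVec_mulVec, Matrix.dotProduct_mulVec, ← Matrix.star_mulVec]

lemma star_dot_self_re_nonneg (v : n → ℂ) : 0 ≤ (star v ⬝ᵥ v).re := by
  simp only [dotProduct, Pi.star_apply, Complex.re_sum]
  exact Finset.sum_nonneg fun i _ => star_mul_self_re_nonneg (v i)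

lemma star_dot_self_re_pos {v : n → ℂ} (hv : v ≠ 0) : 0 < (star v ⬝ᵥ v).re := by
  obtain ⟨i, hi⟩ := Function.ne_iff.mp hv
  simp only [dotProduct, Pi.star_apply, Complex.re_sum]
  refine Finset.sum_pos' (fun i _ => star_mul_self_re_nonneg (v i)) ⟨i, Finset.mem_univ i, ?_⟩
  have : star (v i) * v i = (Complex.normSq (v i) : ℂ) := by
    rw [Complex.star_def, mul_comm, Complex.mul_conj]
  rw [this, Complex.ofReal_re]
  exact Complex.normSq_pos.mpr hi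

end Quad

variable {L : ℕ}

/-- the quadratic form of a two-site integer matrix embedded at the sites `j, k` -/
noncomputable def qf (j k : Fin L) (ψ : (Fin L → Fin 3) → ℂ) :
    Matrix (Fin 3 × Fin 3) (Fin 3 × Fin 3) ℤ →+ ℝ :=
  AddMonoidHom.mk' (fun M => evR ψ (emb2 j k (castC M))) (by
    intro M N
    rw [map_add, emb2_add, map_add])

lemma qf_apply (j k : Fin L) (ψ : (Fin L → Fin 3) → ℂ)
    (M : Matrix (Fin 3 × Fin 3) (Fin 3 × Fin 3) ℤ) :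
    qf j k ψ M = evR ψ (emb2 j k (castC M)) := rfl

lemma qf_transpose (j k : Fin L) (ψ : (Fin L → Fin 3) → ℂ)
    (M : Matrix (Fin 3 × Fin 3) (Fin 3 × Fin 3) ℤ) : qf j k ψ Mᵀ = qf j k ψ M := by
  rw [qf_apply, qf_apply, ← castC_transpose, ← emb2_conjTranspose, evR_conjTranspose]

lemma qf_one (j k : Fin L) (ψ : (Fin L → Fin 3) → ℂ) :
    qf j k ψ 1 = (star ψ ⬝ᵥ ψ).re := by
  rw [qf_apply, map_one, emb2_one, evR_one]

lemma qf_cert_nonneg {j k : Fin L} (hjk : j ≠ k) (ψ : (Fin L → Fin 3) → ℂ)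
    (B : Matrix (Fin 3 × Fin 3) (Fin 3 × Fin 3) ℤ) (d : Fin 3 × Fin 3 → ℤ)
    (hd : ∀ p, 0 ≤ d p) : 0 ≤ qf j k ψ (Bᵀ * Matrix.diagonal d * B) := by
  classical
  have hdiag : castC (Matrix.diagonal d) = Matrix.diagonal (fun p => ((d p : ℤ) : ℂ)) := by
    ext a b
    by_cases h : a = b
    · subst h; simp [castC_apply]
    · simp [castC_apply, Matrix.diagonal_apply_ne _ h]
  have h1 : emb2 j k (castC (Bᵀ * Matrix.diagonal d * B))
      = (emb2 j k (castC B))ᴴ *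
        Matrix.diagonal (fun σ : Fin L → Fin 3 => ((d (σ j, σ k) : ℤ) : ℂ)) *
        emb2 j k (castC B) := by
    rw [map_mul, map_mul, ← emb2_mul hjk, ← emb2_mul hjk, emb2_conjTranspose, castC_transpose,
      hdiag, emb2_diagonal]
  have hpsd : (Matrix.diagonal
      (fun σ : Fin L → Fin 3 => ((d (σ j, σ k) : ℤ) : ℂ))).PosSemidef := by
    apply Matrix.PosSemidef.diagonal
    intro σ
    show (0 : ℂ) ≤ ((d (σ j, σ k) : ℤ) : ℂ)
    rw [← Complex.ofReal_intCast]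
    exact Complex.zero_le_real.mpr (by exact_mod_cast hd _)
  have h2 := (hpsd.conjTranspose_mul_mul_same (emb2 j k (castC B))).dotProduct_mulVec_nonneg ψ
  rw [qf_apply, evR_apply, h1]
  exact (Complex.nonneg_iff.mp h2).1

/-! ### The two-site certificate -/

/-- integer version of `c2` with the bond matrix `qm` -/
def c2m (B A : Matrix (Fin 3) (Fin 3) ℤ) : Matrix (Fin 3 × Fin 3) (Fin 3 × Fin 3) ℤ :=
  (B ⊗ₖ 1) * (qm * (A ⊗ₖ 1) - (A ⊗ₖ 1) * qm) + (1 ⊗ₖ B) * (qm * (1 ⊗ₖ A) - (1 ⊗ₖ A) * qm)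

lemma castC_c2m (B A : Matrix (Fin 3) (Fin 3) ℤ) :
    castC (c2m B A) = c2 (castC qm) (castC B) (castC A) := by
  unfold c2m c2
  simp only [map_add, map_mul, map_sub, castC_kron, map_one]

/-- `42 N + 15 P - 140 D` as an integer two-site matrix -/
def T42 : Matrix (Fin 3 × Fin 3) (Fin 3 × Fin 3) ℤ :=
  42 • c2m Rmᵀ Rm + 15 • c2m Rm Rmᵀ - 70 • ((Rmᵀ * Rm) ⊗ₖ 1 + 1 ⊗ₖ (Rmᵀ * Rm))

/-- rows of the sum-of-squares certificate -/
def Bc : Matrix (Fin 3 × Fin 3) (Fin 3 × Fin 3) ℤ := fun r c =>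
  if r = (0, 0) then (if c = (0, 0) then 1 else 0)
  else if r = (0, 1) then (if c = (0, 1) ∨ c = (1, 0) then 1 else 0)
  else if r = (0, 2) then (if c = (0, 2) then 24 else if c = (1, 1) then 57 else 0)
  else if r = (1, 0) then (if c = (1, 1) then 57 else if c = (2, 0) then 24 else 0)
  else if r = (1, 1) then (if c = (1, 1) then 1 else 0)
  else if r = (1, 2) then (if c = (1, 2) ∨ c = (2, 1) then 1 else 0)
  else if r = (2, 0) then (if c = (1, 2) then 1 else 0)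
  else if r = (2, 1) then (if c = (2, 1) then 1 else 0)
  else (if c = (2, 2) then 1 else 0)

/-- weights of the sum-of-squares certificate -/
def dc : Fin 3 × Fin 3 → ℤ := fun r =>
  if r = (0, 0) then 1392
  else if r = (0, 1) then 2016
  else if r = (0, 2) then 1
  else if r = (1, 0) then 1
  else if r = (1, 1) then 174
  else if r = (1, 2) then 720
  else if r = (2, 0) then 7248
  else if r = (2, 1) then 7248
  else 10704

set_option maxRecDepth 1000000 in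
lemma cert : 24 • (T42 + T42ᵀ) + 48 • (1 : Matrix (Fin 3 × Fin 3) (Fin 3 × Fin 3) ℤ)
    + Bcᵀ * Matrix.diagonal dc * Bc = 0 := by
  decide

lemma dc_nonneg : ∀ p, 0 ≤ dc p := by decide

lemma bond_cert {j k : Fin L} (hjk : j ≠ k) (ψ : (Fin L → Fin 3) → ℂ) :
    qf j k ψ T42 ≤ -(star ψ ⬝ᵥ ψ).re := by
  have h := congrArg (qf j k ψ) cert
  rw [map_add, map_add, map_nsmul, map_nsmul, map_add, qf_transpose, qf_one, map_zero] at h
  have h2 := qf_cert_nonneg hjk ψ Bc dc dc_nonneg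
  simp only [nsmul_eq_mul] at h
  push_cast at h
  linarith

lemma qf_T42 (j k : Fin L) (ψ : (Fin L → Fin 3) → ℂ) :
    qf j k ψ T42 = 42 * qf j k ψ (c2m Rmᵀ Rm) + 15 * qf j k ψ (c2m Rm Rmᵀ)
      - 70 * qf j k ψ ((Rmᵀ * Rm) ⊗ₖ 1 + 1 ⊗ₖ (Rmᵀ * Rm)) := by
  unfold T42
  rw [map_sub, map_add, map_nsmul, map_nsmul, map_nsmul]
  simp only [nsmul_eq_mul]
  push_cast
  ring

/-! ### Weights -/

/-- the weight of a configuration: `L` minus the total `S^z` -/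
def wt (σ : Fin L → Fin 3) : ℕ := ∑ i, (σ i : ℕ)

lemma wt_split {j k : Fin L} (hjk : j ≠ k) (ρ : Fin L → Fin 3) :
    wt ρ = (ρ j : ℕ) + ((ρ k : ℕ) + ∑ i ∈ (Finset.univ.erase j).erase k, (ρ i : ℕ)) := by
  unfold wt
  rw [← Finset.add_sum_erase Finset.univ _ (Finset.mem_univ j),
    ← Finset.add_sum_erase (Finset.univ.erase j) _
      (Finset.mem_erase.mpr ⟨hjk.symm, Finset.mem_univ k⟩)]

lemma wt_eq_of_agree2 {j k : Fin L} (hjk : j ≠ k) {σ τ : Fin L → Fin 3}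
    (h : ∀ i, i ≠ j → i ≠ k → σ i = τ i) (hs : (σ j : ℕ) + σ k = τ j + τ k) : wt σ = wt τ := by
  rw [wt_split hjk σ, wt_split hjk τ]
  have e2 : ∑ i ∈ (Finset.univ.erase j).erase k, (σ i : ℕ)
      = ∑ i ∈ (Finset.univ.erase j).erase k, (τ i : ℕ) :=
    Finset.sum_congr rfl fun i hi => by
      rw [h i (Finset.ne_of_mem_erase (Finset.mem_of_mem_erase hi)) (Finset.ne_of_mem_erase hi)]
  omega

lemma wt_eq_of_agree1 {j : Fin L} {σ τ : Fin L → Fin 3}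
    (h : ∀ i, i ≠ j → σ i = τ i) (hs : (τ j : ℕ) = σ j + 1) : wt τ = wt σ + 1 := by
  unfold wt
  rw [← Finset.add_sum_erase Finset.univ (fun i => (τ i : ℕ)) (Finset.mem_univ j),
    ← Finset.add_sum_erase Finset.univ (fun i => (σ i : ℕ)) (Finset.mem_univ j)]
  have e2 : ∑ i ∈ Finset.univ.erase j, (σ i : ℕ) = ∑ i ∈ Finset.univ.erase j, (τ i : ℕ) :=
    Finset.sum_congr rfl fun i hi => by rw [h i (Finset.ne_of_mem_erase hi)]
  omega

lemma qm_wt_aux : ∀ pp : (Fin 3 × Fin 3) × (Fin 3 × Fin 3),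
    qm pp.1 pp.2 = 0 ∨ (pp.1.1 : ℕ) + pp.1.2 = pp.2.1 + pp.2.2 := by
  decide +kernel

lemma qm_wt (p p' : Fin 3 × Fin 3) (h : qm p p' ≠ 0) : (p.1 : ℕ) + p.2 = p'.1 + p'.2 :=
  (qm_wt_aux (p, p')).resolve_left h

lemma Rm_wt_aux : ∀ p : Fin 3 × Fin 3, Rm p.1 p.2 = 0 ∨ (p.2 : ℕ) = p.1 + 1 := by decide

lemma Rm_wt (a b : Fin 3) (h : Rm a b ≠ 0) : (b : ℕ) = a + 1 :=
  (Rm_wt_aux (a, b)).resolve_left h

lemma emb2_qm_wt {j k : Fin L} (hjk : j ≠ k) {σ τ : Fin L → Fin 3}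
    (h : emb2 j k (castC qm) σ τ ≠ 0) : wt σ = wt τ := by
  rw [emb2_apply] at h
  by_cases hc : ∀ i, i ≠ j → i ≠ k → σ i = τ i
  · rw [if_pos hc, castC_apply] at h
    have hq : qm (σ j, σ k) (τ j, τ k) ≠ 0 := by
      intro h0; apply h; rw [h0]; simp
    exact wt_eq_of_agree2 hjk hc (qm_wt _ _ hq)
  · rw [if_neg hc] at h; exact absurd rfl h

lemma site_R_wt {j : Fin L} {σ τ : Fin L → Fin 3}
    (h : site j (castC Rm) σ τ ≠ 0) : wt τ = wt σ + 1 := by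
  rw [site_apply] at h
  by_cases hc : ∀ i, i ≠ j → σ i = τ i
  · rw [if_pos hc, castC_apply] at h
    have hq : Rm (σ j) (τ j) ≠ 0 := by
      intro h0; apply h; rw [h0]; simp
    exact wt_eq_of_agree1 hc (Rm_wt _ _ hq)
  · rw [if_neg hc] at h; exact absurd rfl h

/-- projection of a vector onto the configurations of weight `m` -/
def proj (m : ℕ) (v : (Fin L → Fin 3) → ℂ) : (Fin L → Fin 3) → ℂ :=
  fun σ => if wt σ = m then v σ else 0

lemma proj_eig {H : Matrix (Fin L → Fin 3) (Fin L → Fin 3) ℂ}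
    (hH : ∀ σ τ, H σ τ ≠ 0 → wt σ = wt τ) {v : (Fin L → Fin 3) → ℂ} {E : ℂ}
    (hv : H *ᵥ v = E • v) (m : ℕ) : H *ᵥ proj m v = E • proj m v := by
  funext σ
  have hvσ := congrFun hv σ
  simp only [Matrix.mulVec, dotProduct, Pi.smul_apply, smul_eq_mul] at hvσ ⊢
  unfold proj
  by_cases hσ : wt σ = m
  · rw [if_pos hσ, ← hvσ]
    refine Finset.sum_congr rfl fun τ _ => ?_
    by_cases h0 : H σ τ = 0
    · rw [h0, zero_mul, zero_mul]
    · rw [if_pos ((hH σ τ h0).symm.trans hσ)]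
  · rw [if_neg hσ, mul_zero]
    refine Finset.sum_eq_zero fun τ _ => ?_
    by_cases h0 : H σ τ = 0
    · rw [h0, zero_mul]
    · rw [if_neg (fun hτ => hσ ((hH σ τ h0).trans hτ)), mul_zero]

section Chain

variable [NeZero L]

lemma heis_wt (hL : 2 ≤ L) {σ τ : Fin L → Fin 3} (h : heis L σ τ ≠ 0) : wt σ = wt τ := by
  rw [heis_eq hL, Matrix.sum_apply] at h
  obtain ⟨i, _, hi⟩ := Finset.exists_ne_zero_of_sum_ne_zero h
  exact emb2_qm_wt (succ_ne_self hL i) hi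

/-- A ground vector of extremal weight. -/
lemma exists_top (hL : 2 ≤ L) {E₀ : ℝ}
    (hE : ∃ v : (Fin L → Fin 3) → ℂ, v ≠ 0 ∧ heis L *ᵥ v = (E₀ : ℂ) • v) :
    ∃ (m : ℕ) (ψ : (Fin L → Fin 3) → ℂ), ψ ≠ 0 ∧ heis L *ᵥ ψ = (E₀ : ℂ) • ψ ∧
      (∀ σ, ψ σ ≠ 0 → wt σ = m) ∧
      (∀ g : (Fin L → Fin 3) → ℂ, heis L *ᵥ g = (E₀ : ℂ) • g → ∀ σ, wt σ < m → g σ = 0) := by
  classical
  let P : ℕ → Prop := fun m => ∃ g : (Fin L → Fin 3) → ℂ,
    heis L *ᵥ g = (E₀ : ℂ) • g ∧ ∃ σ, wt σ = m ∧ g σ ≠ 0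
  have hP : ∃ m, P m := by
    obtain ⟨v, hv0, hv⟩ := hE
    obtain ⟨σ, hσ⟩ := Function.ne_iff.mp hv0
    exact ⟨wt σ, v, hv, σ, rfl, hσ⟩
  obtain ⟨g, hg, σ₀, hσ₀, hgσ₀⟩ := Nat.find_spec hP
  refine ⟨Nat.find hP, proj (Nat.find hP) g, ?_,
    proj_eig (fun σ τ h => heis_wt hL h) hg _, ?_, ?_⟩
  · intro h0
    have h1 := congrFun h0 σ₀
    unfold proj at h1
    rw [if_pos hσ₀] at h1
    exact hgσ₀ h1
  · intro σ hσ
    by_contra hne
    apply hσ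
    unfold proj
    rw [if_neg hne]
  · intro g' hg' σ hσ
    by_contra hne
    exact Nat.find_min hP hσ ⟨g', hg', σ, rfl, hne⟩

lemma exc_sum (hL : 2 ≤ L) (A : Matrix (Fin 3) (Fin 3) ℤ) (ψ : (Fin L → Fin 3) → ℂ) (E : ℝ)
    (hψ : heis L *ᵥ ψ = (E : ℂ) • ψ) :
    ∑ l : Fin L, ((star (site l (castC A) *ᵥ ψ) ⬝ᵥ (heis L *ᵥ (site l (castC A) *ᵥ ψ))).re
        - E * (star (site l (castC A) *ᵥ ψ) ⬝ᵥ (site l (castC A) *ᵥ ψ)).re)
      = ∑ i : Fin L, qf i (i + 1) ψ (c2m Aᵀ A) := by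
  have h1 : ∀ l : Fin L,
      (star (site l (castC A) *ᵥ ψ) ⬝ᵥ (heis L *ᵥ (site l (castC A) *ᵥ ψ))).re
        - E * (star (site l (castC A) *ᵥ ψ) ⬝ᵥ (site l (castC A) *ᵥ ψ)).re
      = evR ψ (site l (castC Aᵀ) * (heis L * site l (castC A) - site l (castC A) * heis L)) := by
    intro l
    rw [← evR_exc (heis L) (site l (castC A)) ψ E hψ, site_conjTranspose, castC_transpose]
  simp_rw [h1]
  rw [← map_sum, comm_sum hL, map_sum]
  refine Finset.sum_congr rfl fun i _ => ?_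
  rw [qf_apply, castC_c2m]

lemma norm_sum (hL : 2 ≤ L) (A : Matrix (Fin 3) (Fin 3) ℤ) (ψ : (Fin L → Fin 3) → ℂ) :
    2 * ∑ l : Fin L, (star (site l (castC A) *ᵥ ψ) ⬝ᵥ (site l (castC A) *ᵥ ψ)).re
      = ∑ i : Fin L, qf i (i + 1) ψ ((Aᵀ * A) ⊗ₖ 1 + 1 ⊗ₖ (Aᵀ * A)) := by
  have h1 : ∀ l : Fin L, (star (site l (castC A) *ᵥ ψ) ⬝ᵥ (site l (castC A) *ᵥ ψ)).re
      = evR ψ (site l (castC (Aᵀ * A))) := by
    intro l
    rw [← evR_sq, site_conjTranspose, castC_transpose, site_mul (succ_ne_self hL l), map_mul]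
  simp_rw [h1]
  have h2 : ∀ i : Fin L, qf i (i + 1) ψ ((Aᵀ * A) ⊗ₖ 1 + 1 ⊗ₖ (Aᵀ * A))
      = evR ψ (emb2 i (i + 1) (castC (Aᵀ * A) ⊗ₖ 1 + 1 ⊗ₖ castC (Aᵀ * A))) := by
    intro i
    rw [qf_apply, map_add, castC_kron, castC_kron, map_one]
  simp_rw [h2]
  rw [← map_sum, ← map_sum, sq_sum hL, map_add, two_mul]

end Chain

/-! ### The main bound -/

section Main

variable [NeZero L]

lemma heis_diag (hL : 2 ≤ L) (σ : Fin L → Fin 3) :
    heis L σ σ = ∑ i : Fin L, ((qm (σ i, σ (i + 1)) (σ i, σ (i + 1)) : ℤ) : ℂ) := by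
  rw [heis_eq hL, Matrix.sum_apply]
  refine Finset.sum_congr rfl fun i _ => ?_
  rw [emb2_apply, if_pos (fun _ _ _ => rfl), castC_apply]

lemma heis_not_scalar (hL : 2 ≤ L) (E : ℂ) : ¬ (∀ σ, heis L σ σ = E) := by
  intro h
  have h0 := h (fun _ => 0)
  have h1 := h (fun _ => 1)
  rw [heis_diag hL] at h0 h1
  have q00 : qm ((0 : Fin 3), (0 : Fin 3)) (0, 0) = 1 := by decide
  have q11 : qm ((1 : Fin 3), (1 : Fin 3)) (1, 1) = 0 := by decide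
  simp only [q00, q11, Int.cast_one, Int.cast_zero, Finset.sum_const, Finset.card_univ,
    Fintype.card_fin, nsmul_eq_mul, mul_one, smul_zero] at h0 h1
  have h2 : (L : ℂ) = 0 := by rw [h0, ← h1]
  have hL0 : L ≠ 0 := by omega
  exact hL0 (by exact_mod_cast h2)

/-- **Uniform upper bound on the gap of the periodic spin-one Heisenberg chain.** -/
theorem gap_bound (hL : 2 ≤ L) :
    ∃ E₀ E₁ : ℝ, IsLeast (spectrum ℝ (heis L)) E₀ ∧
      IsLeast {E | E ∈ spectrum ℝ (heis L) ∧ E₀ < E} E₁ ∧ E₁ - E₀ < 10 / 3 := by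
  classical
  have hH : (heis L).IsHermitian := heis_isHermitian hL
  obtain ⟨E₀, hE₀⟩ := exists_isLeast_spectrum hH
  have hE₀le : ∀ E ∈ spectrum ℝ (heis L), E₀ ≤ E := fun E hE => hE₀.2 hE
  have hne : ({E | E ∈ spectrum ℝ (heis L) ∧ E₀ < E} : Set ℝ).Nonempty := by
    by_contra hemp
    rw [Set.not_nonempty_iff_eq_empty] at hemp
    have hall : ∀ E ∈ spectrum ℝ (heis L), E = E₀ := by
      intro E hE
      by_contra hneq
      have hlt : E₀ < E := lt_of_le_of_ne (hE₀le E hE) (Ne.symm hneq)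
      have hmem : E ∈ ({E | E ∈ spectrum ℝ (heis L) ∧ E₀ < E} : Set ℝ) := ⟨hE, hlt⟩
      rw [hemp] at hmem
      exact hmem
    exact heis_not_scalar hL (E₀ : ℂ) (fun σ => diag_eq_of_spectrum_eq hH hall σ)
  have hfin : ({E | E ∈ spectrum ℝ (heis L) ∧ E₀ < E} : Set ℝ).Finite :=
    (Matrix.finite_real_spectrum (A := heis L)).subset (fun E hE => hE.1)
  obtain ⟨E₁, hE₁mem, hE₁min⟩ := Set.exists_min_image _ id hfin hne
  have hE₁ : IsLeast {E | E ∈ spectrum ℝ (heis L) ∧ E₀ < E} E₁ :=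
    ⟨hE₁mem, fun E hE => hE₁min E hE⟩
  refine ⟨E₀, E₁, hE₀, hE₁, ?_⟩
  by_contra hcon
  rw [not_lt] at hcon
  have hE₁le : ∀ E ∈ spectrum ℝ (heis L), E₀ < E → E₁ ≤ E := fun E hE hlt => hE₁.2 ⟨hE, hlt⟩
  obtain ⟨m, ψ, hψ0, hψ, hsupp, htop⟩ :=
    exists_top hL (exists_eigenvector_of_mem_spectrum hH hE₀.1)
  -- the raised vectors are orthogonal to the ground space
  have horth : ∀ l : Fin L, ∀ g : (Fin L → Fin 3) → ℂ, heis L *ᵥ g = (E₀ : ℂ) • g →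
      star g ⬝ᵥ (site l (castC Rm) *ᵥ ψ) = 0 := by
    intro l g hg
    simp only [dotProduct]
    refine Finset.sum_eq_zero fun σ _ => ?_
    by_cases hz : (site l (castC Rm) *ᵥ ψ) σ = 0
    · rw [hz, mul_zero]
    · have hlt : wt σ < m := by
        simp only [Matrix.mulVec, dotProduct] at hz
        obtain ⟨τ, _, hτ⟩ := Finset.exists_ne_zero_of_sum_ne_zero hz
        have h1 : site l (castC Rm) σ τ ≠ 0 := left_ne_zero_of_mul hτ
        have h2 : ψ τ ≠ 0 := right_ne_zero_of_mul hτ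
        have h3 := site_R_wt h1
        have h4 := hsupp τ h2
        omega
      rw [Pi.star_apply, htop g hg σ hlt, star_zero, zero_mul]
  have hn : ∀ l : Fin L,
      0 ≤ (star (site l (castC Rm) *ᵥ ψ) ⬝ᵥ (site l (castC Rm) *ᵥ ψ)).re :=
    fun l => star_dot_self_re_nonneg _
  have ha : ∀ l : Fin L,
      (10 / 3 : ℝ) * (star (site l (castC Rm) *ᵥ ψ) ⬝ᵥ (site l (castC Rm) *ᵥ ψ)).re ≤
        (star (site l (castC Rm) *ᵥ ψ) ⬝ᵥ (heis L *ᵥ (site l (castC Rm) *ᵥ ψ))).re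
          - E₀ * (star (site l (castC Rm) *ᵥ ψ) ⬝ᵥ (site l (castC Rm) *ᵥ ψ)).re := by
    intro l
    have h1 := gap_lower hH hE₀le hE₁le (site l (castC Rm) *ᵥ ψ) (horth l)
    nlinarith [hn l]
  have hb : ∀ l : Fin L,
      0 ≤ (star (site l (castC Rmᵀ) *ᵥ ψ) ⬝ᵥ (heis L *ᵥ (site l (castC Rmᵀ) *ᵥ ψ))).re
          - E₀ * (star (site l (castC Rmᵀ) *ᵥ ψ) ⬝ᵥ (site l (castC Rmᵀ) *ᵥ ψ)).re := by
    intro l
    have h1 := rayleigh_lower hH hE₀le (site l (castC Rmᵀ) *ᵥ ψ)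
    linarith
  have hA := exc_sum hL Rm ψ E₀ hψ
  have hB := exc_sum hL Rmᵀ ψ E₀ hψ
  have hN := norm_sum hL Rm ψ
  rw [Matrix.transpose_transpose] at hB
  have hcert : ∑ i : Fin L, qf i (i + 1) ψ T42 ≤ ∑ _i : Fin L, (-(star ψ ⬝ᵥ ψ).re) :=
    Finset.sum_le_sum fun i _ => bond_cert (succ_ne_self hL i) ψ
  have hT : ∑ i : Fin L, qf i (i + 1) ψ T42
      = 42 * ∑ i : Fin L, qf i (i + 1) ψ (c2m Rmᵀ Rm)
        + 15 * ∑ i : Fin L, qf i (i + 1) ψ (c2m Rm Rmᵀ)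
        - 70 * ∑ i : Fin L, qf i (i + 1) ψ ((Rmᵀ * Rm) ⊗ₖ 1 + 1 ⊗ₖ (Rmᵀ * Rm)) := by
    simp_rw [qf_T42]
    rw [Finset.sum_sub_distrib, Finset.sum_add_distrib, Finset.mul_sum, Finset.mul_sum,
      Finset.mul_sum]
  have hpos : 0 < (star ψ ⬝ᵥ ψ).re := star_dot_self_re_pos hψ0
  rw [Finset.sum_const, Finset.card_univ, Fintype.card_fin, nsmul_eq_mul] at hcert
  have hLpos : (0 : ℝ) < L := by exact_mod_cast (by omega : 0 < L)
  have hsa : (10 / 3 : ℝ) *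
      ∑ l : Fin L, (star (site l (castC Rm) *ᵥ ψ) ⬝ᵥ (site l (castC Rm) *ᵥ ψ)).re ≤
      ∑ l : Fin L, ((star (site l (castC Rm) *ᵥ ψ) ⬝ᵥ
          (heis L *ᵥ (site l (castC Rm) *ᵥ ψ))).re
        - E₀ * (star (site l (castC Rm) *ᵥ ψ) ⬝ᵥ (site l (castC Rm) *ᵥ ψ)).re) := by
    rw [Finset.mul_sum]
    exact Finset.sum_le_sum fun l _ => ha l
  have hsb : 0 ≤ ∑ l : Fin L, ((star (site l (castC Rmᵀ) *ᵥ ψ) ⬝ᵥ
          (heis L *ᵥ (site l (castC Rmᵀ) *ᵥ ψ))).re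
        - E₀ * (star (site l (castC Rmᵀ) *ᵥ ψ) ⬝ᵥ (site l (castC Rmᵀ) *ᵥ ψ)).re) :=
    Finset.sum_nonneg fun l _ => hb l
  rw [← hA, ← hB, ← hN] at hT
  have hprod := mul_pos hLpos hpos
  linarith

end Main

end Vale.Agent.H93
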